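import Vale.Agent.P011.H339.FF.V0
import Vale.Agent.P011.H511.HasseApproxF
import Vale.Agent.P011.H73.Sp2

/-!
# A small cohomologically trivial neighbourhood of one in a cyclic extension of a global function
field (helper339)
-/

open Module Finset

set_option linter.unusedSectionVars false

namespace Vale.Agent.P011.H339.FFV

open Vale.Agent.P011.H738 Vale.Agent.P011.H271 Vale.Agent.P011.H973.PF
open Vale.Agent.P011.H271.S3 (Ab)
open Vale.Agent.P011.H511.FF (exists_lb exists_ub above_finite av_of_ab abv_sum_lt)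

section place

variable {k E : Type} [Field k] [Field E] [GFF k] [GFF E] [Algebra k E] [FiniteDimensional k E]

theorem av_finite (v : Place k) : {w : Place E | Av' w v}.Finite := by
  refine (above_finite (K := E) (Set.finite_singleton v)).subset fun w hw => ?_
  exact ⟨v, rfl, hw⟩

/-- a radius -/
theorem exists_r (B : NB k E) (v : Place k) {C ε : ℝ} (hC : 0 < C) (hε : 0 < ε) :
    ∃ r : ℝ, 0 < r ∧ C * r ≤ 1 / 2 ∧
      ∀ x : E, nn B v.abv x ≤ r → ∀ w : Place E, Av' w v → w.abv x < ε := by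
  classical
  obtain ⟨π, hπ⟩ := H73.Sp.exists_lt_one v
  have h1 : ∀ w : Place E, ∃ n : ℕ, Av' w v → ∀ t : E ≃ₐ[k] E,
      (w.abv (algebraMap k E (π : k))) ^ n * w.abv (B.b t) < ε := by
    intro w
    by_cases hw : Av' w v
    · have hD : 0 < 1 + ∑ t : E ≃ₐ[k] E, w.abv (B.b t) := by
        have := Finset.sum_nonneg fun (t : E ≃ₐ[k] E) (_ : t ∈ univ) => w.abv.nonneg (B.b t)
        linarith
      obtain ⟨n, hn⟩ := exists_pow_lt_of_lt_one (div_pos hε hD) ((hw.lt_one _).2 hπ)
      refine ⟨n, fun _ t => ?_⟩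
      have h2 : w.abv (B.b t) ≤ 1 + ∑ t : E ≃ₐ[k] E, w.abv (B.b t) := by
        have := Finset.single_le_sum (f := fun t : E ≃ₐ[k] E => w.abv (B.b t))
          (fun _ _ => w.abv.nonneg _) (mem_univ t)
        linarith
      calc (w.abv (algebraMap k E (π : k))) ^ n * w.abv (B.b t) ≤
            (w.abv (algebraMap k E (π : k))) ^ n * (1 + ∑ t : E ≃ₐ[k] E, w.abv (B.b t)) :=
            mul_le_mul_of_nonneg_left h2 (pow_nonneg (w.abv.nonneg _) _)
        _ < ε := by rwa [lt_div_iff₀ hD] at hn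
    · exact ⟨0, fun h => absurd h hw⟩
  choose n hn using h1
  have hfin := av_finite (E := E) v
  let N : ℕ := ∑ w ∈ hfin.toFinset, n w
  have hπ0 : 0 < v.abv (π : k) := v.abv.pos π.ne_zero
  refine ⟨min (1 / (2 * C)) (v.abv (π : k) ^ N), lt_min (by positivity) (pow_pos hπ0 _), ?_, ?_⟩
  · calc C * min (1 / (2 * C)) (v.abv (π : k) ^ N) ≤ C * (1 / (2 * C)) :=
          mul_le_mul_of_nonneg_left (min_le_left _ _) hC.le
      _ = 1 / 2 := by field_simp
  · intro x hx w hw
    have hle : n w ≤ N := Finset.single_le_sum (f := n) (fun _ _ => Nat.zero_le _)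
      (hfin.mem_toFinset.2 hw)
    rw [← B.b.sum_repr x]
    refine abv_sum_lt w _ _ hε fun t _ => ?_
    have h2 : v.abv (B.b.repr x t) ≤ v.abv ((π : k) ^ N) := by
      rw [map_pow]
      exact (le_nn x t).trans (hx.trans (min_le_right _ _))
    have h3 := (hw.le_iff _ _).2 h2
    rw [map_pow, map_pow] at h3
    rw [Algebra.smul_def, map_mul]
    have hπw : w.abv (algebraMap k E (π : k)) ≤ 1 := ((hw.lt_one _).2 hπ).le
    calc w.abv (algebraMap k E (B.b.repr x t)) * w.abv (B.b t) ≤
          (w.abv (algebraMap k E (π : k))) ^ (n w) * w.abv (B.b t) :=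
          mul_le_mul_of_nonneg_right (h3.trans (pow_le_pow_of_le_one (w.abv.nonneg _) hπw hle))
            (w.abv.nonneg _)
      _ < ε := hn w hw t

/-- elements close to zero above `v` have small coordinates -/
theorem exists_dl [IsGalois k E] (B : NB k E) (v : Place k) {r : ℝ} (hr : 0 < r) :
    ∃ δ : ℝ, 0 < δ ∧ ∀ x : E, (∀ w : Place E, Av' w v → w.abv x < δ) → nn B v.abv x ≤ r := by
  classical
  obtain ⟨η, hη⟩ := H73.Sp.coord_small B.b v hr
  have hfin := av_finite (E := E) v
  obtain ⟨δ, hδ, h⟩ := exists_lb hfin.toFinset (fun w => w.abv (algebraMap k E (η : k)))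
    fun w _ => w.abv.pos ((map_ne_zero _).2 η.ne_zero)
  refine ⟨δ, hδ, fun x hx => nn_le_iff.2 fun t => (hη x (fun w hw => ?_) t).le⟩
  have hw' := av_of_ab hw
  exact (hx w hw').trans_le (h w (hfin.mem_toFinset.2 hw'))

end place

section main

variable {k E : Type} [Field k] [Field E] [GFF k] [GFF E] [Algebra k E] [FiniteDimensional k E]
  [IsGalois k E]

/-- **a small cohomologically trivial neighbourhood of one** -/
theorem exists_V {p : ℕ} (hd : finrank k E = p) (s : E ≃ₐ[k] E)
    (hs : ∀ t : E ≃ₐ[k] E, ∃ i, i < p ∧ t = s ^ i) (S : Finset (Place k)) {ε : ℝ} (hε : 0 < ε) :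
    ∃ V : Subgroup Eˣ,
      (∀ x ∈ V, ∀ v ∈ S, ∀ w : Place E, Av' w v → w.abv ((x : E) - 1) < ε) ∧
      (∃ δ > 0, ∀ x : Eˣ, (∀ v ∈ S, ∀ w : Place E, Av' w v → w.abv ((x : E) - 1) < δ) → x ∈ V) ∧
      (∀ x ∈ V, Units.map (s : E →* E) x ∈ V) ∧
      (∀ x : kˣ, Units.map (algebraMap k E : k →* E) x ∈ V → ∀ η > 0, ∃ y ∈ V, ∀ v ∈ S,
        v.abv ((x : k) / Algebra.norm k (y : E) - 1) < η) ∧
      (∀ a : Eˣ, Units.map (s : E →* E) a / a ∈ V →
        ∃ b : kˣ, a / Units.map (algebraMap k E : k →* E) b ∈ V) := by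
  classical
  rcases S.eq_empty_or_nonempty with rfl | ⟨v₀, hv₀⟩
  · refine ⟨⊤, ?_, ⟨1, one_pos, ?_⟩, ?_, ?_, ?_⟩
    · intro x _ v hv
      exact absurd hv (Finset.notMem_empty v)
    · intro x _
      exact Subgroup.mem_top x
    · intro x _
      exact Subgroup.mem_top _
    · intro x _ η _
      exact ⟨1, Subgroup.mem_top _, fun v hv => absurd hv (Finset.notMem_empty v)⟩
    · intro a _
      exact ⟨1, Subgroup.mem_top _⟩
  obtain ⟨B⟩ := exists_nb (k := k) (E := E)
  have h1 : ∀ v : Place k, ∃ C : ℝ, MC B v.abv C := fun v => by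
    obtain ⟨C, hC1, hC⟩ := exists_C (B := B) (a := v.abv) v.nonarch
    exact ⟨C, v.nonarch, hC1, hC⟩
  choose C hC using h1
  have hC0 : ∀ v, 0 < C v := fun v => one_pos.trans_le (hC v).one_le
  choose r hr0 hrC hr using fun v => exists_r B v (mul_pos (hC0 v) (hC0 v)) hε
  choose dl hdl0 hdl using fun v => exists_dl B v (hr0 v)
  -- consequences for the radius
  have hCr : ∀ v, C v * r v ≤ 1 / 2 := fun v => by
    calc C v * r v = 1 * (C v * r v) := (one_mul _).symm
      _ ≤ C v * (C v * r v) :=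
        mul_le_mul_of_nonneg_right (hC v).one_le (mul_nonneg (hC0 v).le (hr0 v).le)
      _ = C v * C v * r v := by ring
      _ ≤ 1 / 2 := hrC v
  have hCr1 : ∀ v, C v * r v < 1 := fun v => (hCr v).trans_lt (by norm_num)
  have hr1 : ∀ v, r v < 1 := fun v => by
    calc r v = 1 * r v := (one_mul _).symm
      _ ≤ C v * r v := mul_le_mul_of_nonneg_right (hC v).one_le (hr0 v).le
      _ < 1 := hCr1 v
  let V : Subgroup Eˣ :=
    { carrier := {x | ∀ v ∈ S, nn B v.abv ((x : E) - 1) ≤ r v}
      one_mem' := by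
        intro v _
        rw [Units.val_one, sub_self, nn_zero]
        exact (hr0 v).le
      mul_mem' := by
        intro x y hx hy v hv
        rw [Units.val_mul]
        exact close_mul (hC v) (hCr1 v).le (hx v hv) (hy v hv)
      inv_mem' := by
        intro x hx v hv
        rw [Units.val_inv_eq_inv_val]
        exact close_inv (hC v) x.ne_zero (hCr1 v) (hx v hv) }
  have hV : ∀ x : Eˣ, x ∈ V ↔ ∀ v ∈ S, nn B v.abv ((x : E) - 1) ≤ r v := fun _ => Iff.rfl
  refine ⟨V, ?_, ?_, ?_, ?_, ?_⟩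
  · -- (V1)
    intro x hx v hv w hw
    exact hr v _ (hx v hv) w hw
  · -- (V2)
    obtain ⟨δ, hδ, h⟩ := exists_lb S dl fun v _ => hdl0 v
    refine ⟨δ, hδ, fun x hx v hv => hdl v _ fun w hw => (hx v hv w hw).trans_le (h v hv)⟩
  · -- (V3)
    intro x hx v hv
    have e : ((Units.map (s : E →* E) x : Eˣ) : E) - 1 = s ((x : E) - 1) := by
      rw [map_sub, map_one]
      rfl
    rw [e, nn_gal v.nonarch]
    exact hx v hv
  · -- (V4)
    intro x hx η hη
    have hx' : ∀ v ∈ S, v.abv ((x : k) - 1) ≤ r v := by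
      intro v hv
      have h2 := hx v hv
      have e : ((Units.map (algebraMap k E : k →* E) x : Eˣ) : E) - 1 =
          algebraMap k E ((x : k) - 1) := by
        rw [map_sub, map_one]
        rfl
      rwa [e, nn_alg] at h2
    have key : ∀ n : ℕ, ∃ y ∈ V, ∀ v ∈ S,
        v.abv ((x : k) / Algebra.norm k (y : E) - 1) ≤ (1 / 2) ^ n * r v := by
      intro n
      induction n with
      | zero =>
        refine ⟨1, V.one_mem, fun v hv => ?_⟩
        rw [Units.val_one, map_one, div_one, pow_zero, one_mul]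
        exact hx' v hv
      | succ n ih =>
        obtain ⟨y, hy, h⟩ := ih
        set x' : k := (x : k) / Algebra.norm k (y : E) with hxx
        have hle : ∀ v ∈ S, v.abv (x' - 1) ≤ r v := fun v hv => by
          refine (h v hv).trans ?_
          calc (1 / 2 : ℝ) ^ n * r v ≤ 1 * r v :=
                mul_le_mul_of_nonneg_right (pow_le_one₀ (by norm_num) (by norm_num)) (hr0 v).le
            _ = r v := one_mul _
        have hCx : ∀ v ∈ S, C v * v.abv (x' - 1) ≤ 1 / 2 := fun v hv =>
          (mul_le_mul_of_nonneg_left (hle v hv) (hC0 v).le).trans (hCr v)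
        have h4 : ∀ v ∈ S, _ := fun v hv =>
          step4 (hC v) (x := x') ((hCx v hv).trans_lt (by norm_num))
        have hne : 1 + (x' - 1) • B.β ≠ 0 := by
          refine one_add_ne (B := B) (a := v₀.abv) ?_
          exact (h4 v₀ hv₀).1.trans_lt ((hle v₀ hv₀).trans_lt (hr1 v₀))
        refine ⟨y * Units.mk0 _ hne, V.mul_mem hy fun v hv => ?_, fun v hv => ?_⟩
        · rw [Units.val_mk0, add_sub_cancel_left]
          exact (h4 v hv).1.trans (hle v hv)
        · have e : (x : k) / Algebra.norm k ((y * Units.mk0 _ hne : Eˣ) : E) =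
              x' / Algebra.norm k (1 + (x' - 1) • B.β) := by
            rw [Units.val_mul, Units.val_mk0, map_mul, hxx, div_mul_eq_div_div]
          rw [e]
          refine (h4 v hv).2.trans ?_
          calc C v * v.abv (x' - 1) * v.abv (x' - 1) ≤ 1 / 2 * ((1 / 2) ^ n * r v) :=
                mul_le_mul (hCx v hv) (h v hv) (v.abv.nonneg _) (by norm_num)
            _ = (1 / 2) ^ (n + 1) * r v := by ring
    obtain ⟨n, hn⟩ := exists_pow_lt_of_lt_one hη (show (1 / 2 : ℝ) < 1 by norm_num)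
    obtain ⟨y, hy, h⟩ := key n
    refine ⟨y, hy, fun v hv => (h v hv).trans_lt ?_⟩
    calc (1 / 2 : ℝ) ^ n * r v ≤ (1 / 2) ^ n * 1 :=
          mul_le_mul_of_nonneg_left (hr1 v).le (pow_nonneg (by norm_num) _)
      _ < η := by rwa [mul_one]
  · -- (V5)
    intro a0 ha0
    set m : E := s (a0 : E) / (a0 : E) - 1 with hm
    have ha00 : (a0 : E) ≠ 0 := a0.ne_zero
    have hmle : ∀ v ∈ S, nn B v.abv m ≤ r v := by
      intro v hv
      have h2 := ha0 v hv
      have e : ((Units.map (s : E →* E) a0 / a0 : Eˣ) : E) = s (a0 : E) / (a0 : E) := by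
        rw [Units.val_div_eq_div_val]
        rfl
      rwa [e] at h2
    have hN : Algebra.norm k (1 + m) = 1 := by
      have e : s (a0 : E) = (1 + m) * (a0 : E) := by
        rw [hm]
        field_simp
        ring
      have e2 := congrArg (Algebra.norm k) e
      rw [map_mul, Algebra.norm_eq_of_algEquiv] at e2
      have h0 : Algebra.norm k (a0 : E) ≠ 0 := Algebra.norm_ne_zero_iff.2 ha00
      exact mul_right_cancel₀ h0 (by rw [one_mul]; exact e2.symm)
    have hCm : ∀ v ∈ S, C v * nn B v.abv m ≤ 1 / 2 := fun v hv =>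
      (mul_le_mul_of_nonneg_left (hmle v hv) (hC0 v).le).trans (hCr v)
    obtain ⟨d, hdd⟩ := exists_d B hd hs hN
    have hd1 : ∀ v ∈ S, _ := fun v hv =>
      hdd v.abv (C v) (hC v) ((hCm v hv).trans (by norm_num))
    have hdr : ∀ v ∈ S, nn B v.abv d ≤ r v := fun v hv => (hd1 v hv).1.trans (hmle v hv)
    have ht0 : 1 + d ≠ 0 :=
      one_add_ne (B := B) (a := v₀.abv) ((hdr v₀ hv₀).trans_lt (hr1 v₀))
    have hst0 : 1 + s d ≠ 0 := by
      refine one_add_ne (B := B) (a := v₀.abv) ?_
      rw [nn_gal v₀.nonarch]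
      exact (hdr v₀ hv₀).trans_lt (hr1 v₀)
    -- the better element
    set a1 : E := (a0 : E) / (1 + d) with ha1
    have ha10 : a1 ≠ 0 := div_ne_zero ha00 ht0
    have hq : ∀ v ∈ S, nn B v.abv (s a1 / a1 - 1) ≤ C v * r v * r v := by
      intro v hv
      have e : s a1 / a1 - 1 = ((1 + m) * (1 + d) - (1 + s d)) * (1 + s d)⁻¹ := by
        rw [ha1, map_div₀, map_add, map_one, hm]
        field_simp
        ring
      rw [e]
      have h5 : nn B v.abv ((1 + s d)⁻¹ - 1) ≤ r v := by
        refine close_inv (hC v) hst0 (hCr1 v) ?_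
        rw [add_sub_cancel_left, nn_gal v.nonarch]
        exact hdr v hv
      refine (mul_unit (hC v) ?_ _).trans ((hd1 v hv).2.trans ?_)
      · exact (mul_le_mul_of_nonneg_left h5 (hC0 v).le).trans (hCr1 v).le
      · exact mul_le_mul (mul_le_mul_of_nonneg_left (hmle v hv) (hC0 v).le) (hmle v hv)
          (nn_nonneg _) (mul_nonneg (hC0 v).le (hr0 v).le)
    have hρ : ∀ v, C v * (C v * r v * r v) ≤ r v / 2 := fun v => by
      calc C v * (C v * r v * r v) = (C v * C v * r v) * r v := by ring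
        _ ≤ 1 / 2 * r v := mul_le_mul_of_nonneg_right (hrC v) (hr0 v).le
        _ = r v / 2 := by ring
    set b : k := Algebra.trace k E (a1 * B.β) with hb
    have hbc : ∀ v ∈ S, nn B v.abv (algebraMap k E b / a1 - 1) ≤ r v := by
      intro v hv
      refine (tr_close hs (hC v) ha10 ?_ ?_ (hq v hv)).trans ?_
      · exact mul_nonneg (mul_nonneg (hC0 v).le (hr0 v).le) (hr0 v).le
      · refine (hρ v).trans ?_
        have := (hr1 v).le
        linarith
      · refine (hρ v).trans ?_
        have := (hr0 v).le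
        linarith
    have hb0 : b ≠ 0 := by
      intro h0
      have h5 := hbc v₀ hv₀
      rw [h0, map_zero, zero_div, zero_sub, nn_neg, nn_one] at h5
      exact absurd (hr1 v₀) (not_lt.2 h5)
    have hb0' : algebraMap k E b ≠ 0 := (map_ne_zero _).2 hb0
    refine ⟨Units.mk0 b hb0, fun v hv => ?_⟩
    have e : ((a0 / Units.map (algebraMap k E : k →* E) (Units.mk0 b hb0) : Eˣ) : E) =
        (1 + d) * (algebraMap k E b / a1)⁻¹ := by
      rw [Units.val_div_eq_div_val, ha1]
      change (a0 : E) / algebraMap k E b = _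
      field_simp
    rw [e]
    refine close_mul (hC v) (hCr1 v).le ?_ ?_
    · rw [add_sub_cancel_left]
      exact hdr v hv
    · exact close_inv (hC v) (div_ne_zero hb0' ha10) (hCr1 v) (hbc v hv)

end main

end Vale.Agent.P011.H339.FFV
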