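import Mathlib.FieldTheory.Galois.NormalBasis
import Mathlib.RingTheory.Norm.Transitivity
import Mathlib.Algebra.BigOperators.Field
import Mathlib.RingTheory.Trace.Basic
import Mathlib.Analysis.SpecialFunctions.Pow.Real

/-!
# A normal basis of trace one and the ultrametric norm of its coordinates (helper339)
-/

open Module Finset

set_option linter.unusedSectionVars false

namespace Vale.Agent.P011.H339.FFV

/-- A normal basis of trace one. -/
structure NB (k E : Type) [Field k] [Field E] [Algebra k E] [FiniteDimensional k E] where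
  /-- the generator -/
  β : E
  /-- the basis -/
  b : Basis (E ≃ₐ[k] E) k E
  hb : ∀ t : E ≃ₐ[k] E, b t = t β
  tr : ∑ t : E ≃ₐ[k] E, t β = 1

section basis

variable {k E : Type} [Field k] [Field E] [Algebra k E] [FiniteDimensional k E]

theorem exists_nb [IsGalois k E] : Nonempty (NB k E) := by
  classical
  let b0 := IsGalois.normalBasis k E
  have h0 : ∀ t : E ≃ₐ[k] E, b0 t = t (b0 1) := fun t => IsGalois.normalBasis_apply t
  set T : k := Algebra.trace k E (b0 1) with hT
  have hT1 : algebraMap k E T = ∑ t : E ≃ₐ[k] E, b0 t := by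
    rw [hT, trace_eq_sum_automorphisms]
    exact Finset.sum_congr rfl fun t _ => (h0 t).symm
  have hT0 : T ≠ 0 := by
    intro h
    rw [h, map_zero] at hT1
    have h1 := Fintype.linearIndependent_iff.1 b0.linearIndependent (fun _ => 1) (by
      simp only [one_smul]
      exact hT1.symm) 1
    exact one_ne_zero h1
  refine ⟨⟨T⁻¹ • b0 1, b0.unitsSMul fun _ => (Units.mk0 T hT0)⁻¹, fun t => ?_, ?_⟩⟩
  · rw [Basis.unitsSMul_apply, map_smul, h0 t, Units.smul_def, Units.val_inv_eq_inv_val,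
      Units.val_mk0]
  · have e : ∀ t : E ≃ₐ[k] E, t (T⁻¹ • b0 1) = T⁻¹ • b0 t := fun t => by
      rw [map_smul, ← h0 t]
    rw [Finset.sum_congr rfl fun t _ => e t, ← Finset.smul_sum, ← hT1, Algebra.smul_def,
      ← map_mul, inv_mul_cancel₀ hT0, map_one]

end basis

section nrm

variable {k E : Type} [Field k] [Field E] [Algebra k E] [FiniteDimensional k E]
  (B : NB k E) (a : AbsoluteValue k ℝ)

/-- The maximum of the coordinates. -/
noncomputable def nn (x : E) : ℝ :=
  univ.sup' univ_nonempty fun t : E ≃ₐ[k] E => a (B.b.repr x t)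

variable {B a}

theorem nn_le_iff {x : E} {r : ℝ} : nn B a x ≤ r ↔ ∀ t, a (B.b.repr x t) ≤ r := by
  rw [nn, Finset.sup'_le_iff]
  exact ⟨fun h t => h t (mem_univ t), fun h t _ => h t⟩

theorem le_nn (x : E) (t : E ≃ₐ[k] E) : a (B.b.repr x t) ≤ nn B a x := nn_le_iff.1 le_rfl t

theorem nn_nonneg (x : E) : 0 ≤ nn B a x := (a.nonneg _).trans (le_nn x 1)

theorem nn_zero : nn B a 0 = 0 := by
  refine le_antisymm (nn_le_iff.2 fun t => ?_) (nn_nonneg 0)
  rw [map_zero, Finsupp.coe_zero, Pi.zero_apply, map_zero]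

theorem nn_add (ha : ∀ x y, a (x + y) ≤ max (a x) (a y)) (x y : E) :
    nn B a (x + y) ≤ max (nn B a x) (nn B a y) := by
  refine nn_le_iff.2 fun t => ?_
  rw [map_add, Finsupp.add_apply]
  exact (ha _ _).trans (max_le_max (le_nn x t) (le_nn y t))

theorem nn_neg (x : E) : nn B a (-x) = nn B a x := by
  have h : ∀ x : E, nn B a (-x) ≤ nn B a x := fun x => nn_le_iff.2 fun t => by
    rw [map_neg, Finsupp.neg_apply, a.map_neg]
    exact le_nn x t
  refine le_antisymm (h x) ?_
  have := h (-x)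
  rwa [neg_neg] at this

theorem nn_sub (ha : ∀ x y, a (x + y) ≤ max (a x) (a y)) (x y : E) :
    nn B a (x - y) ≤ max (nn B a x) (nn B a y) := by
  rw [sub_eq_add_neg]
  exact (nn_add ha _ _).trans (by rw [nn_neg])

theorem nn_smul_le (c : k) (x : E) : nn B a (c • x) ≤ a c * nn B a x := by
  refine nn_le_iff.2 fun t => ?_
  rw [map_smul, Finsupp.smul_apply, smul_eq_mul, map_mul]
  exact mul_le_mul_of_nonneg_left (le_nn x t) (a.nonneg _)

theorem nn_sum (ha : ∀ x y, a (x + y) ≤ max (a x) (a y)) {ι : Type*} (T : Finset ι) (f : ι → E)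
    {r : ℝ} (hr : 0 ≤ r) (h : ∀ i ∈ T, nn B a (f i) ≤ r) : nn B a (∑ i ∈ T, f i) ≤ r := by
  classical
  induction T using Finset.induction_on with
  | empty => rwa [Finset.sum_empty, nn_zero]
  | insert i T hi ih =>
    rw [Finset.sum_insert hi]
    exact (nn_add ha _ _).trans (max_le (h i (Finset.mem_insert_self _ _))
      (ih fun j hj => h j (Finset.mem_insert_of_mem hj)))

theorem abv_sum (ha : ∀ x y, a (x + y) ≤ max (a x) (a y)) {ι : Type*} (T : Finset ι) (f : ι → k)
    {r : ℝ} (hr : 0 ≤ r) (h : ∀ i ∈ T, a (f i) ≤ r) : a (∑ i ∈ T, f i) ≤ r := by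
  classical
  induction T using Finset.induction_on with
  | empty => rwa [Finset.sum_empty, map_zero]
  | insert i T hi ih =>
    rw [Finset.sum_insert hi]
    exact (ha _ _).trans (max_le (h i (Finset.mem_insert_self _ _))
      (ih fun j hj => h j (Finset.mem_insert_of_mem hj)))

theorem nn_b_le (t : E ≃ₐ[k] E) : nn B a (B.b t) ≤ 1 := by
  classical
  refine nn_le_iff.2 fun u => ?_
  rw [Basis.repr_self, Finsupp.single_apply]
  split_ifs
  · rw [map_one]
  · rw [map_zero]; exact zero_le_one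

theorem repr_alg (c : k) (t : E ≃ₐ[k] E) : B.b.repr (algebraMap k E c) t = c := by
  classical
  have h1 : algebraMap k E c = ∑ u : E ≃ₐ[k] E, c • B.b u := by
    rw [← Finset.smul_sum, Finset.sum_congr rfl fun u _ => B.hb u, B.tr, Algebra.smul_def, mul_one]
  rw [h1]
  exact B.b.repr_sum_self (fun _ => c) ▸ rfl

theorem nn_alg (c : k) : nn B a (algebraMap k E c) = a c := by
  refine le_antisymm (nn_le_iff.2 fun t => ?_) ?_
  · rw [repr_alg]
  · have := le_nn (B := B) (a := a) (algebraMap k E c) 1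
    rwa [repr_alg] at this

theorem nn_one : nn B a 1 = 1 := by
  rw [← map_one (algebraMap k E), nn_alg, map_one]

theorem nn_gal_le (ha : ∀ x y, a (x + y) ≤ max (a x) (a y)) (t : E ≃ₐ[k] E) (x : E) :
    nn B a (t x) ≤ nn B a x := by
  classical
  have h1 : t x = ∑ u : E ≃ₐ[k] E, B.b.repr x u • B.b (t * u) := by
    conv_lhs => rw [← B.b.sum_repr x]
    rw [map_sum]
    refine Finset.sum_congr rfl fun u _ => ?_
    rw [map_smul, B.hb, B.hb, AlgEquiv.mul_apply]
  rw [h1]
  refine nn_sum ha _ _ (nn_nonneg _) fun u _ => ?_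
  refine (nn_smul_le _ _).trans ?_
  calc a (B.b.repr x u) * nn B a (B.b (t * u)) ≤ nn B a x * 1 :=
        mul_le_mul (le_nn _ _) (nn_b_le _) (nn_nonneg _) (nn_nonneg _)
    _ = nn B a x := mul_one _

theorem nn_gal (ha : ∀ x y, a (x + y) ≤ max (a x) (a y)) (t : E ≃ₐ[k] E) (x : E) :
    nn B a (t x) = nn B a x := by
  refine le_antisymm (nn_gal_le ha t x) ?_
  have := nn_gal_le (B := B) ha t⁻¹ (t x)
  rwa [← AlgEquiv.mul_apply, inv_mul_cancel, AlgEquiv.one_apply] at this

theorem exists_C (ha : ∀ x y, a (x + y) ≤ max (a x) (a y)) :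
    ∃ C : ℝ, 1 ≤ C ∧ ∀ x y : E, nn B a (x * y) ≤ C * nn B a x * nn B a y := by
  classical
  let C : ℝ := 1 + ∑ t : E ≃ₐ[k] E, ∑ u : E ≃ₐ[k] E, nn B a (B.b t * B.b u)
  have h0 : ∀ t u : E ≃ₐ[k] E, 0 ≤ nn B a (B.b t * B.b u) := fun t u => nn_nonneg _
  have hC : ∀ t u : E ≃ₐ[k] E, nn B a (B.b t * B.b u) ≤ C := by
    intro t u
    have h1 : nn B a (B.b t * B.b u) ≤
        ∑ t : E ≃ₐ[k] E, ∑ u : E ≃ₐ[k] E, nn B a (B.b t * B.b u) := by
      refine (Finset.single_le_sum (f := fun u => nn B a (B.b t * B.b u))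
        (fun _ _ => h0 _ _) (mem_univ u)).trans ?_
      exact Finset.single_le_sum (f := fun t => ∑ u : E ≃ₐ[k] E, nn B a (B.b t * B.b u))
        (fun _ _ => Finset.sum_nonneg fun _ _ => h0 _ _) (mem_univ t)
    simp only [C]
    linarith
  have hC1 : 1 ≤ C := by
    have : 0 ≤ ∑ t : E ≃ₐ[k] E, ∑ u : E ≃ₐ[k] E, nn B a (B.b t * B.b u) :=
      Finset.sum_nonneg fun _ _ => Finset.sum_nonneg fun _ _ => h0 _ _
    simp only [C]
    linarith
  refine ⟨C, hC1, fun x y => ?_⟩
  have e : x * y = ∑ t : E ≃ₐ[k] E, ∑ u : E ≃ₐ[k] E,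
      (B.b.repr x t * B.b.repr y u) • (B.b t * B.b u) := by
    conv_lhs => rw [← B.b.sum_repr x, ← B.b.sum_repr y]
    rw [Finset.sum_mul_sum]
    refine Finset.sum_congr rfl fun t _ => Finset.sum_congr rfl fun u _ => ?_
    rw [smul_mul_smul_comm]
  have hr : 0 ≤ C * nn B a x * nn B a y :=
    mul_nonneg (mul_nonneg (zero_le_one.trans hC1) (nn_nonneg _)) (nn_nonneg _)
  rw [e]
  refine nn_sum ha _ _ hr fun t _ => nn_sum ha _ _ hr fun u _ => ?_
  refine (nn_smul_le _ _).trans ?_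
  rw [map_mul]
  calc a (B.b.repr x t) * a (B.b.repr y u) * nn B a (B.b t * B.b u) ≤
        (nn B a x * nn B a y) * C :=
        mul_le_mul (mul_le_mul (le_nn _ _) (le_nn _ _) (a.nonneg _) (nn_nonneg _)) (hC _ _)
          (nn_nonneg _) (mul_nonneg (nn_nonneg _) (nn_nonneg _))
    _ = C * nn B a x * nn B a y := by ring

end nrm

section close

variable {k E : Type} [Field k] [Field E] [Algebra k E] [FiniteDimensional k E]
  {B : NB k E} {a : AbsoluteValue k ℝ}

/-- A constant for the multiplication. -/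
structure MC (B : NB k E) (a : AbsoluteValue k ℝ) (C : ℝ) : Prop where
  na : ∀ x y, a (x + y) ≤ max (a x) (a y)
  one_le : 1 ≤ C
  mul : ∀ x y : E, nn B a (x * y) ≤ C * nn B a x * nn B a y

variable {C : ℝ}

theorem mul_small (h : MC B a C) {x y : E} {r : ℝ} (hx : C * nn B a x ≤ 1) (hy : nn B a y ≤ r) :
    nn B a (x * y) ≤ r := by
  refine (h.mul x y).trans ?_
  calc C * nn B a x * nn B a y ≤ 1 * nn B a y := mul_le_mul_of_nonneg_right hx (nn_nonneg _)
    _ = nn B a y := one_mul _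
    _ ≤ r := hy

theorem close_mul (h : MC B a C) {x y : E} {r : ℝ} (hr : C * r ≤ 1) (hx : nn B a (x - 1) ≤ r)
    (hy : nn B a (y - 1) ≤ r) : nn B a (x * y - 1) ≤ r := by
  have e : x * y - 1 = (x - 1) * (y - 1) + ((x - 1) + (y - 1)) := by ring
  rw [e]
  have hC0 : (0 : ℝ) ≤ C := zero_le_one.trans h.one_le
  refine (nn_add h.na _ _).trans (max_le ?_ ((nn_add h.na _ _).trans (max_le hx hy)))
  exact mul_small h ((mul_le_mul_of_nonneg_left hx hC0).trans hr) hy

theorem close_inv (h : MC B a C) {x : E} (hx0 : x ≠ 0) {r : ℝ} (hr : C * r < 1)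
    (hx : nn B a (x - 1) ≤ r) : nn B a (x⁻¹ - 1) ≤ r := by
  have hC0 : (0 : ℝ) ≤ C := zero_le_one.trans h.one_le
  by_contra hcon
  rw [not_le] at hcon
  have e : x⁻¹ - 1 = -((x - 1) * (x⁻¹ - 1) + (x - 1)) := by
    field_simp
    ring
  have h1 : nn B a (x⁻¹ - 1) ≤ max (nn B a ((x - 1) * (x⁻¹ - 1))) (nn B a (x - 1)) := by
    conv_lhs => rw [e, nn_neg]
    exact nn_add h.na _ _
  rcases le_max_iff.1 h1 with h2 | h2
  · have h3 := h2.trans (h.mul _ _)
    have h4 : 0 < nn B a (x⁻¹ - 1) := ((nn_nonneg _).trans hx).trans_lt hcon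
    have h5 : C * nn B a (x - 1) < 1 := (mul_le_mul_of_nonneg_left hx hC0).trans_lt hr
    have h6 : C * nn B a (x - 1) * nn B a (x⁻¹ - 1) < 1 * nn B a (x⁻¹ - 1) :=
      mul_lt_mul_of_pos_right h5 h4
    rw [one_mul] at h6
    exact absurd (h3.trans_lt h6) (lt_irrefl _)
  · exact absurd (h2.trans hx) (not_le.2 hcon)

/-- multiplication by a unit near one -/
theorem mul_unit (h : MC B a C) {y : E} (hy : C * nn B a (y - 1) ≤ 1) (z : E) :
    nn B a (z * y) ≤ nn B a z := by
  have e : z * y = z + (y - 1) * z := by ring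
  rw [e]
  exact (nn_add h.na _ _).trans (max_le le_rfl (mul_small h hy le_rfl))

/-- the expansion of the norm -/
theorem prod_exp (h : MC B a C) {z : E} (hz : C * nn B a z ≤ 1) (T : Finset (E ≃ₐ[k] E)) :
    nn B a (∏ t ∈ T, (1 + t z) - 1 - ∑ t ∈ T, t z) ≤ C * nn B a z * nn B a z := by
  classical
  have hC0 : (0 : ℝ) ≤ C := zero_le_one.trans h.one_le
  have hr : 0 ≤ C * nn B a z * nn B a z := mul_nonneg (mul_nonneg hC0 (nn_nonneg _)) (nn_nonneg _)
  induction T using Finset.induction_on with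
  | empty =>
    rw [Finset.prod_empty, Finset.sum_empty, sub_self, sub_zero, nn_zero]
    exact hr
  | insert u T hu ih =>
    rw [Finset.prod_insert hu, Finset.sum_insert hu]
    have e : (1 + u z) * ∏ t ∈ T, (1 + t z) - 1 - (u z + ∑ t ∈ T, t z) =
        (∏ t ∈ T, (1 + t z) - 1 - ∑ t ∈ T, t z) + u z * (∏ t ∈ T, (1 + t z) - 1) := by ring
    rw [e]
    refine (nn_add h.na _ _).trans (max_le ih ?_)
    refine (h.mul _ _).trans ?_
    rw [nn_gal h.na]
    refine mul_le_mul_of_nonneg_left ?_ (mul_nonneg hC0 (nn_nonneg _))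
    have e2 : ∏ t ∈ T, (1 + t z) - 1 = (∏ t ∈ T, (1 + t z) - 1 - ∑ t ∈ T, t z) +
      ∑ t ∈ T, t z := by ring
    rw [e2]
    refine (nn_add h.na _ _).trans (max_le (ih.trans ?_) ?_)
    · calc C * nn B a z * nn B a z ≤ 1 * nn B a z := mul_le_mul_of_nonneg_right hz (nn_nonneg _)
        _ = nn B a z := one_mul _
    · exact nn_sum h.na _ _ (nn_nonneg _) fun t _ => (nn_gal h.na t z).le

theorem norm_exp [IsGalois k E] (h : MC B a C) {z : E} (hz : C * nn B a z ≤ 1) :
    a (Algebra.norm k (1 + z) - 1 - Algebra.trace k E z) ≤ C * nn B a z * nn B a z := by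
  have h1 := prod_exp h hz univ
  rw [← nn_alg (B := B), map_sub, map_sub, map_one, Algebra.norm_eq_prod_automorphisms,
    trace_eq_sum_automorphisms]
  have e : ∀ t : E ≃ₐ[k] E, t (1 + z) = 1 + t z := fun t => by rw [map_add, map_one]
  rw [Finset.prod_congr rfl fun t _ => e t]
  exact h1

theorem tr_b [IsGalois k E] (B : NB k E) (t : E ≃ₐ[k] E) : Algebra.trace k E (B.b t) = 1 := by
  apply (algebraMap k E).injective
  rw [map_one, trace_eq_sum_automorphisms, B.hb, ← B.tr]
  have e : ∀ u : E ≃ₐ[k] E, u (t B.β) = (u * t) B.β := fun u => rfl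
  rw [Finset.sum_congr rfl fun u _ => e u]
  exact Fintype.sum_equiv (Equiv.mulRight t) _ _ fun u => rfl

theorem tr_eq [IsGalois k E] (B : NB k E) (x : E) :
    Algebra.trace k E x = ∑ t : E ≃ₐ[k] E, B.b.repr x t := by
  conv_lhs => rw [← B.b.sum_repr x]
  rw [map_sum]
  refine Finset.sum_congr rfl fun t _ => ?_
  rw [map_smul, tr_b, smul_eq_mul, mul_one]

theorem tr_beta [IsGalois k E] (B : NB k E) : Algebra.trace k E B.β = 1 := by
  have := tr_b B 1
  rwa [B.hb, AlgEquiv.one_apply] at this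

theorem abv_tr_le [IsGalois k E] (ha : ∀ x y, a (x + y) ≤ max (a x) (a y)) (x : E) :
    a (Algebra.trace k E x) ≤ nn B a x := by
  rw [tr_eq B]
  exact abv_sum ha _ _ (nn_nonneg _) fun t _ => le_nn x t

theorem nn_beta_le : nn B a B.β ≤ 1 := by
  have := nn_b_le (B := B) (a := a) 1
  rwa [B.hb, AlgEquiv.one_apply] at this

theorem one_add_ne {z : E} (hz : nn B a z < 1) :
    1 + z ≠ 0 := by
  intro h
  have h1 : z = -1 := by linear_combination h
  rw [h1, nn_neg, nn_one] at hz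
  exact lt_irrefl _ hz

theorem abv_eq_one (ha : ∀ x y, a (x + y) ≤ max (a x) (a y)) {c : k} (hc : a (c - 1) < 1) :
    a c = 1 := by
  refine le_antisymm ?_ ?_
  · have e : c = (c - 1) + 1 := by ring
    rw [e]
    exact (ha _ _).trans (max_le hc.le (map_one a).le)
  · by_contra hcon
    rw [not_le] at hcon
    have e : (1 : k) = c + -(c - 1) := by ring
    have h1 : a (1 : k) < 1 := by
      rw [e]
      refine (ha _ _).trans_lt (max_lt hcon ?_)
      rwa [a.map_neg]
    rw [map_one] at h1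
    exact lt_irrefl _ h1

/-- one step of (V4) -/
theorem step4 [IsGalois k E] (h : MC B a C) {x : k} (hx : C * a (x - 1) < 1) :
    nn B a ((x - 1) • B.β) ≤ a (x - 1) ∧
      a (x / Algebra.norm k (1 + (x - 1) • B.β) - 1) ≤ C * a (x - 1) * a (x - 1) := by
  have hC0 : (0 : ℝ) ≤ C := zero_le_one.trans h.one_le
  set c := x - 1 with hc
  set z : E := c • B.β with hz
  have h1 : nn B a z ≤ a c := by
    refine (nn_smul_le _ _).trans ?_
    calc a c * nn B a B.β ≤ a c * 1 := mul_le_mul_of_nonneg_left nn_beta_le (a.nonneg _)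
      _ = a c := mul_one _
  refine ⟨h1, ?_⟩
  have h2 : C * nn B a z < 1 := (mul_le_mul_of_nonneg_left h1 hC0).trans_lt hx
  have h3 := norm_exp h h2.le
  have h4 : Algebra.trace k E z = c := by
    rw [hz, map_smul, tr_beta, smul_eq_mul, mul_one]
  rw [h4] at h3
  have h5 : C * nn B a z * nn B a z ≤ C * a c * a c := by
    refine mul_le_mul (mul_le_mul_of_nonneg_left h1 hC0) h1 (nn_nonneg _)
      (mul_nonneg hC0 (a.nonneg _))
  have hac : a c < 1 := by
    calc a c = 1 * a c := (one_mul _).symm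
      _ ≤ C * a c := mul_le_mul_of_nonneg_right h.one_le (a.nonneg _)
      _ < 1 := hx
  have h6 : a (Algebra.norm k (1 + z) - 1) < 1 := by
    have e : Algebra.norm k (1 + z) - 1 = (Algebra.norm k (1 + z) - 1 - c) + c := by ring
    rw [e]
    refine (h.na _ _).trans_lt (max_lt ((h3.trans h5).trans_lt ?_) hac)
    calc C * a c * a c ≤ 1 * a c := mul_le_mul_of_nonneg_right hx.le (a.nonneg _)
      _ < 1 := by rwa [one_mul]
  have h7 := abv_eq_one h.na h6
  have h8 : Algebra.norm k (1 + z) ≠ 0 := by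
    intro h0
    rw [h0, map_zero] at h7
    exact zero_ne_one h7
  have e : x / Algebra.norm k (1 + z) - 1 =
      -((Algebra.norm k (1 + z) - 1 - c) / Algebra.norm k (1 + z)) := by
    field_simp
    rw [hc]
    ring
  rw [e, a.map_neg, map_div₀, h7, div_one]
  exact h3.trans h5

end close

section gen

variable {k E : Type} [Field k] [Field E] [Algebra k E] [FiniteDimensional k E] [IsGalois k E]
  {B : NB k E} {p : ℕ} {s : E ≃ₐ[k] E}

theorem sum_gen (hd : finrank k E = p) (hs : ∀ t : E ≃ₐ[k] E, ∃ i, i < p ∧ t = s ^ i)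
    {M : Type*} [AddCommMonoid M] (f : (E ≃ₐ[k] E) → M) :
    ∑ i ∈ range p, f (s ^ i) = ∑ t, f t := by
  classical
  have h1 : (range p).image (fun i => s ^ i) = univ := by
    refine Finset.eq_univ_of_forall fun t => ?_
    obtain ⟨i, hi, rfl⟩ := hs t
    exact Finset.mem_image_of_mem _ (Finset.mem_range.2 hi)
  have h2 : Set.InjOn (fun i => s ^ i) (range p : Set ℕ) := by
    rw [← Finset.card_image_iff, h1, Finset.card_range, Finset.card_univ, ← Nat.card_eq_fintype_card,
      IsGalois.card_aut_eq_finrank, hd]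
  rw [← h1, Finset.sum_image h2]

/-- the explicit additive Hilbert 90 -/
theorem exists_d (B : NB k E) (hd : finrank k E = p)
    (hs : ∀ t : E ≃ₐ[k] E, ∃ i, i < p ∧ t = s ^ i) {m : E} (hm : Algebra.norm k (1 + m) = 1) :
    ∃ d : E, ∀ (a : AbsoluteValue k ℝ) (C : ℝ), MC B a C → C * nn B a m ≤ 1 →
      nn B a d ≤ nn B a m ∧
      nn B a ((1 + m) * (1 + d) - (1 + s d)) ≤ C * nn B a m * nn B a m := by
  classical
  set m' : E := m - Algebra.trace k E m • B.β with hm'
  have htr : Algebra.trace k E m' = 0 := by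
    rw [hm', map_sub, map_smul, tr_beta, smul_eq_mul, mul_one, sub_self]
  let e : ℕ → k := fun i => ∑ j ∈ range i, B.b.repr m' (s ^ j)
  let f : ℕ → E := fun i => e i • B.b (s ^ i)
  have he0 : e 0 = 0 := by simp [e]
  have hep : e p = 0 := by
    change ∑ j ∈ range p, B.b.repr m' (s ^ j) = 0
    rw [sum_gen hd hs fun t => B.b.repr m' t, ← tr_eq, htr]
  have hes : ∀ i, e (i + 1) = e i + B.b.repr m' (s ^ i) := fun i => Finset.sum_range_succ _ _
  refine ⟨-∑ i ∈ range p, e (i + 1) • B.b (s ^ i), fun a C h hC => ?_⟩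
  set d : E := -∑ i ∈ range p, e (i + 1) • B.b (s ^ i) with hdd
  have hC0 : (0 : ℝ) ≤ C := zero_le_one.trans h.one_le
  have hsm : ∑ i ∈ range p, B.b.repr m' (s ^ i) • B.b (s ^ i) = m' := by
    rw [sum_gen hd hs fun t => B.b.repr m' t • B.b t, B.b.sum_repr]
  have hsd : s d - d = m' := by
    have h1 : s d = -∑ i ∈ range p, f (i + 1) := by
      rw [hdd, map_neg, map_sum]
      congr 1
      refine Finset.sum_congr rfl fun i _ => ?_
      change s (e (i + 1) • B.b (s ^ i)) = e (i + 1) • B.b (s ^ (i + 1))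
      rw [map_smul, B.hb, B.hb, pow_succ', AlgEquiv.mul_apply]
    have h2 : d = -(∑ i ∈ range p, f i + m') := by
      rw [hdd, ← hsm, ← Finset.sum_add_distrib]
      congr 1
      refine Finset.sum_congr rfl fun i _ => ?_
      change e (i + 1) • B.b (s ^ i) = e i • B.b (s ^ i) + _
      rw [hes, add_smul]
    have h3 : ∑ i ∈ range p, f (i + 1) - ∑ i ∈ range p, f i = 0 := by
      rw [← Finset.sum_sub_distrib, Finset.sum_range_sub]
      change e p • B.b (s ^ p) - e 0 • B.b (s ^ 0) = 0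
      rw [hep, he0, zero_smul, zero_smul, sub_zero]
    rw [h1]
    conv_lhs => rw [h2]
    linear_combination -h3
  have hT : a (Algebra.trace k E m) ≤ C * nn B a m * nn B a m := by
    have h1 := norm_exp h hC
    rw [hm, sub_self, zero_sub, a.map_neg] at h1
    exact h1
  have hsq : C * nn B a m * nn B a m ≤ nn B a m := by
    calc C * nn B a m * nn B a m ≤ 1 * nn B a m := mul_le_mul_of_nonneg_right hC (nn_nonneg _)
      _ = nn B a m := one_mul _
  have hTb : nn B a (Algebra.trace k E m • B.β) ≤ C * nn B a m * nn B a m := by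
    refine (nn_smul_le _ _).trans ?_
    calc a (Algebra.trace k E m) * nn B a B.β ≤ (C * nn B a m * nn B a m) * 1 :=
          mul_le_mul hT nn_beta_le (nn_nonneg _)
            (mul_nonneg (mul_nonneg hC0 (nn_nonneg _)) (nn_nonneg _))
      _ = _ := mul_one _
  have hm1 : nn B a m' ≤ nn B a m :=
    (nn_sub h.na _ _).trans (max_le le_rfl (hTb.trans hsq))
  have he : ∀ i, a (e i) ≤ nn B a m := fun i =>
    abv_sum h.na _ _ (nn_nonneg _) fun j _ => (le_nn _ _).trans hm1
  have hd1 : nn B a d ≤ nn B a m := by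
    rw [hdd, nn_neg]
    refine nn_sum h.na _ _ (nn_nonneg _) fun i _ => (nn_smul_le _ _).trans ?_
    calc a (e (i + 1)) * nn B a (B.b (s ^ i)) ≤ nn B a m * 1 :=
          mul_le_mul (he _) (nn_b_le _) (nn_nonneg _) (nn_nonneg _)
      _ = nn B a m := mul_one _
  refine ⟨hd1, ?_⟩
  have e1 : (1 + m) * (1 + d) - (1 + s d) = Algebra.trace k E m • B.β + m * d := by
    have h1 : m' = m - Algebra.trace k E m • B.β := hm'
    rw [h1] at hsd
    linear_combination -hsd
  rw [e1]
  refine (nn_add h.na _ _).trans (max_le hTb ((h.mul _ _).trans ?_))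
  exact mul_le_mul_of_nonneg_left hd1 (mul_nonneg hC0 (nn_nonneg _))

theorem pow_close {a : AbsoluteValue k ℝ} {C : ℝ} (h : MC B a C) {x : E} (hx0 : x ≠ 0) {r : ℝ}
    (hr0 : 0 ≤ r) (hr : C * r ≤ 1)
    (hx : nn B a (s x / x - 1) ≤ r) (i : ℕ) : nn B a ((s ^ i) x / x - 1) ≤ r := by
  induction i with
  | zero =>
    rw [pow_zero, AlgEquiv.one_apply, div_self hx0, sub_self, nn_zero]
    exact hr0
  | succ i ih =>
    have hs0 : (s ^ i) x ≠ 0 := (map_ne_zero (s ^ i)).2 hx0
    have e : (s ^ (i + 1)) x / x = ((s ^ i) (s x / x)) * ((s ^ i) x / x) := by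
      rw [pow_succ, AlgEquiv.mul_apply, map_div₀]
      field_simp
    rw [e]
    refine close_mul h hr ?_ ih
    have e2 : (s ^ i) (s x / x) - 1 = (s ^ i) (s x / x - 1) := by rw [map_sub, map_one]
    rw [e2, nn_gal h.na]
    exact hx

/-- the trace of `x β` is close to `x` -/
theorem tr_close (hs : ∀ t : E ≃ₐ[k] E, ∃ i, i < p ∧ t = s ^ i)
    {a : AbsoluteValue k ℝ} {C : ℝ} (h : MC B a C) {x : E} (hx0 : x ≠ 0) {r : ℝ}
    (hr0 : 0 ≤ r) (hr : C * r ≤ 1) (hx : nn B a (s x / x - 1) ≤ r) :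
    nn B a (algebraMap k E (Algebra.trace k E (x * B.β)) / x - 1) ≤ C * r := by
  classical
  have hC0 : (0 : ℝ) ≤ C := zero_le_one.trans h.one_le
  have e : algebraMap k E (Algebra.trace k E (x * B.β)) / x - 1 =
      ∑ t : E ≃ₐ[k] E, (t x / x - 1) * B.b t := by
    rw [trace_eq_sum_automorphisms, Finset.sum_div]
    conv_lhs => rw [← B.tr]
    rw [← Finset.sum_sub_distrib]
    refine Finset.sum_congr rfl fun t _ => ?_
    rw [map_mul, B.hb]
    field_simp
  rw [e]
  refine nn_sum h.na _ _ (mul_nonneg hC0 hr0) fun t _ => ?_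
  obtain ⟨i, -, rfl⟩ := hs t
  refine (h.mul _ _).trans ?_
  calc C * nn B a ((s ^ i) x / x - 1) * nn B a (B.b (s ^ i)) ≤ C * r * 1 :=
        mul_le_mul (mul_le_mul_of_nonneg_left (pow_close h hx0 hr0 hr hx i) hC0) (nn_b_le _)
          (nn_nonneg _) (mul_nonneg hC0 hr0)
    _ = C * r := mul_one _

end gen

end Vale.Agent.P011.H339.FFV
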